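import Vale.Agent.P284.H661.T.TS
import Vale.Agent.P284.H66.V10
import Vale.Agent.P284.H730.VP
import Vale.Agent.P284.H913.V3

/-!
# P284, theorem T2, block T10: an almost invariant vector gives an equivariant family with small
energy: `f a z = Σ_b χ_b(z) π(κ_ab(z)) x`
-/

open scoped Manifold ContDiff Topology Pointwise ComplexConjugate ComplexOrder InnerProductSpace
open Filter Set Metric MeasureTheory

noncomputable section

namespace Vale.Agent.P284.H212.T

open Vale.Agent.P272.K Vale.Agent.P272.K.C2 Vale.Agent.P284.H248 Vale.Agent.P284.H894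
  Vale.Agent.P284.H894.V Vale.Agent.P284.H639.V Vale.Agent.P284.H66 Vale.Agent.P284.H661.T

section
variable {n : ℕ} {Γ : Type} [Group Γ] {C : Coc n Γ} {W : Type} [NormedAddCommGroup W]
  [InnerProductSpace ℝ W]

/-- the family -/
def psi (P : PU C) (π : Γ →* (W ≃ₗᵢ[ℝ] W)) (x : W) (a : C.I) : Cm n → W :=
  (C.Ω a).indicator fun z => ∑ b, P.χ b a z • π (C.κ a b z) x

theorem psi_mem (P : PU C) (π : Γ →* (W ≃ₗᵢ[ℝ] W)) (x : W) {a : C.I} {z : Cm n} (hz : z ∈ C.Ω a) :
    psi P π x a z = ∑ b, P.χ b a z • π (C.κ a b z) x := indicator_of_mem hz _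

theorem psi_ev (P : PU C) (π : Γ →* (W ≃ₗᵢ[ℝ] W)) (x : W) {a : C.I} {z : Cm n} (hz : z ∈ C.Ω a) :
    psi P π x a =ᶠ[𝓝 z] fun y => ∑ b, P.χ b a y • π (C.κ a b z) x := by
  have h1 : ∀ b, ∀ᶠ y in 𝓝 z, P.χ b a y • π (C.κ a b y) x = P.χ b a y • π (C.κ a b z) x := by
    intro b
    by_cases h : z ∈ C.O a b ∧ C.T a b z ∈ P.K b
    · filter_upwards [C.κ_loc a b z h.1] with y hy
      rw [hy]
    · filter_upwards [chi_ev P b hz h] with y hy
      rw [hy, zero_smul, zero_smul]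
  filter_upwards [(isOpen_Ω C a).mem_nhds hz, (eventually_all (ι := C.I)).2 h1] with y hy h
  rw [psi_mem P π x hy]
  exact Finset.sum_congr rfl fun b _ => h b

theorem et_psi (P : PU C) (π : Γ →* (W ≃ₗᵢ[ℝ] W)) (x : W) : ET C π (psi P π x) where
  smooth a z hz := by
    refine ContDiffAt.congr_of_eventuallyEq ?_ (psi_ev P π x hz)
    exact ContDiffAt.sum fun b _ => (P.smooth b a z hz).smul contDiffAt_const
  compat a d z hz := by
    rw [psi_mem P π x (O_sub_Ω C hz), psi_mem P π x (T_mem_Ω C hz), map_sum]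
    refine Finset.sum_congr rfl fun b _ => ?_
    rw [← P.compat b a d z hz, map_smul]
    by_cases h0 : P.χ b a z = 0
    · rw [h0, zero_smul, zero_smul]
    · have h3 : P.χ b d (C.T a d z) ≠ 0 := by rwa [← P.compat b a d z hz]
      have h4 := (P.supp b d _ (T_mem_Ω C hz) h3).1
      rw [C.trans_κ a d b z hz h4, map_mul]
      rfl
  out a z hz := indicator_of_notMem hz _

theorem psi_sub (P : PU C) (π : Γ →* (W ≃ₗᵢ[ℝ] W)) (x : W) {η : ℝ}
    (h : ∀ g ∈ C.N, ‖π g x - x‖ ≤ η) {a : C.I} {z : Cm n} (hz : z ∈ C.V a) :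
    ‖psi P π x a z - x‖ ≤ η := by
  have hz' := V_sub_Ω C a hz
  have e : psi P π x a z - x = ∑ b, P.χ b a z • (π (C.κ a b z) x - x) := by
    rw [psi_mem P π x hz']
    simp only [smul_sub, Finset.sum_sub_distrib]
    rw [← Finset.sum_smul, P.sum_one a z hz', one_smul]
  rw [e]
  calc ‖∑ b, P.χ b a z • (π (C.κ a b z) x - x)‖ ≤ ∑ b, P.χ b a z * η := by
        refine norm_sum_le_of_le _ fun b _ => ?_
        rw [norm_smul, Real.norm_of_nonneg (P.nonneg b a z)]
        by_cases h0 : P.χ b a z = 0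
        · rw [h0, zero_mul, zero_mul]
        · exact mul_le_mul_of_nonneg_left (h _ (kap_mem P hz h0)) (P.nonneg b a z)
    _ = η := by rw [← Finset.sum_mul, P.sum_one a z hz', one_mul]

/-- near a point of `V a` a component of the family is constant plus a small combination of the `χ b` -/
theorem cp_psi_ev (P : PU C) (π : Γ →* (W ≃ₗᵢ[ℝ] W)) (x c : W) {a : C.I} {z : Cm n}
    (hz : z ∈ C.Ω a) : cp c (psi P π x a) =ᶠ[𝓝 z]
      fun y => ⟪c, x⟫_ℝ + ∑ b, P.χ b a y * ⟪c, π (C.κ a b z) x - x⟫_ℝ := by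
  filter_upwards [psi_ev P π x hz, (isOpen_Ω C a).mem_nhds hz] with y hy hy'
  have e : psi P π x a y = x + ∑ b, P.χ b a y • (π (C.κ a b z) x - x) := by
    rw [hy]
    simp only [smul_sub, Finset.sum_sub_distrib]
    rw [← Finset.sum_smul, P.sum_one a y hy', one_smul]
    abel
  simp only [cp]
  rw [e, inner_add_right, inner_sum]
  simp only [inner_smul_right]

/-- bound of one component -/
theorem D1_cp_le (P : PU C) (π : Γ →* (W ≃ₗᵢ[ℝ] W)) (x c : W) {a : C.I} {z : Cm n}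
    (hz : z ∈ C.V a) : D1 (cp c (psi P π x a)) z ≤ ∑ j : Fin n, (Fintype.card C.I : ℝ) *
      ∑ b, ‖dz j (fun y => (P.χ b a y : ℂ)) z‖ ^ 2 * ⟪c, π (C.κ a b z) x - x⟫_ℝ ^ 2 := by
  have hz' := V_sub_Ω C a hz
  unfold D1
  refine Finset.sum_le_sum fun j _ => ?_
  have e : (fun y => (cp c (psi P π x a) y : ℂ)) =ᶠ[𝓝 z]
      fun y => (⟪c, x⟫_ℝ : ℂ) + ∑ b, (P.χ b a y : ℂ) * (⟪c, π (C.κ a b z) x - x⟫_ℝ : ℂ) := by
    filter_upwards [cp_psi_ev P π x c hz'] with y hy
    rw [hy]; push_cast; rfl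
  have hd : ∀ b, DifferentiableAt ℝ (fun y => (P.χ b a y : ℂ)) z := fun b =>
    differentiableAt_ofReal ((P.smooth b a z hz').differentiableAt (by norm_num))
  have hs : DifferentiableAt ℝ (fun y => ∑ b, (P.χ b a y : ℂ) *
      (⟪c, π (C.κ a b z) x - x⟫_ℝ : ℂ)) z :=
    DifferentiableAt.fun_sum fun b _ => (hd b).mul_const _
  rw [dz_congr j e, dz_add j (differentiableAt_const _) hs, Vale.Agent.P272.K.C2.dz_const, zero_add,
    dz_sum j Finset.univ fun b _ => (hd b).mul_const _]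
  have h1 : ‖∑ b, dz j (fun y => (P.χ b a y : ℂ) * (⟪c, π (C.κ a b z) x - x⟫_ℝ : ℂ)) z‖ ≤
      ∑ b, ‖dz j (fun y => (P.χ b a y : ℂ)) z‖ * |⟪c, π (C.κ a b z) x - x⟫_ℝ| := by
    refine (norm_sum_le _ _).trans (le_of_eq (Finset.sum_congr rfl fun b _ => ?_))
    rw [dz_mul_const j _ (hd b), norm_mul, Complex.norm_real, Real.norm_eq_abs]
  refine (pow_le_pow_left₀ (norm_nonneg _) h1 2).trans ?_
  refine (sq_sum_le_card_mul_sum_sq).trans (le_of_eq ?_)
  rw [Finset.card_univ]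
  congr 1
  refine Finset.sum_congr rfl fun b _ => ?_
  rw [mul_pow, sq_abs]

/-- one bound for the gradients of the partition of unity -/
theorem exists_dchi_bound (P : PU C) : ∃ B : ℝ, 0 < B ∧ ∀ a, ∀ z ∈ C.V a, ∀ j b,
    ‖dz j (fun y => (P.χ b a y : ℂ)) z‖ ^ 2 ≤ B := by
  have h1 : ∀ a : C.I, ∀ j : Fin n, ∀ b : C.I, ∃ B : ℝ, ∀ z ∈ C.V a,
      ‖dz j (fun y => (P.χ b a y : ℂ)) z‖ ^ 2 ≤ B := by
    intro a j b
    have hc : ContinuousOn (fun z => ‖dz j (fun y => (P.χ b a y : ℂ)) z‖ ^ 2)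
        (closedBall (C.c a) (3 * C.r a)) := by
      intro z hz
      have hz' := closed_sub_Ω C a hz
      refine ContinuousAt.continuousWithinAt ?_
      have h2 : ContDiffAt ℝ ∞ (fun y => dz j (fun y => (P.χ b a y : ℂ)) y) z :=
        contDiffAt_dz j (contDiffAt_ofReal (P.smooth b a z hz')) (by norm_num)
      exact h2.continuousAt.norm.pow 2
    obtain ⟨B, hB⟩ := (isCompact_closedBall (C.c a) (3 * C.r a)).bddAbove_image hc
    exact ⟨B, fun z hz => hB ⟨z, V_sub_closed C a hz, rfl⟩⟩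
  choose B hB using h1
  refine ⟨1 + ∑ a, ∑ j, ∑ b, |B a j b|, by positivity, fun a z hz j b => ?_⟩
  have h2 : |B a j b| ≤ ∑ b, |B a j b| :=
    Finset.single_le_sum (f := fun b => |B a j b|) (fun b _ => abs_nonneg _) (Finset.mem_univ b)
  have h3 : ∑ b, |B a j b| ≤ ∑ j, ∑ b, |B a j b| :=
    Finset.single_le_sum (f := fun j => ∑ b, |B a j b|)
      (fun j _ => Finset.sum_nonneg fun b _ => abs_nonneg _) (Finset.mem_univ j)
  have h4 : ∑ j, ∑ b, |B a j b| ≤ ∑ a, ∑ j, ∑ b, |B a j b| :=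
    Finset.single_le_sum (f := fun a => ∑ j, ∑ b, |B a j b|)
      (fun a _ => Finset.sum_nonneg fun j _ => Finset.sum_nonneg fun b _ => abs_nonneg _)
      (Finset.mem_univ a)
  linarith [hB a j b z hz, le_abs_self (B a j b)]

variable [CompleteSpace W] {ι : Type}

/-- pointwise bound of the energy density -/
theorem grW_le (P : PU C) (K : KM C) (π : Γ →* (W ≃ₗᵢ[ℝ] W)) (e : HilbertBasis ι ℝ W) (x : W)
    {η B : ℝ} (hη : 0 ≤ η) (h : ∀ g ∈ C.N, ‖π g x - x‖ ≤ η)
    (hB : ∀ a, ∀ z ∈ C.V a, ∀ j b, ‖dz j (fun y => (P.χ b a y : ℂ)) z‖ ^ 2 ≤ B)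
    {a : C.I} {z : Cm n} (hz : z ∈ C.V a) :
    0 ≤ grW e K (psi P π x) (psi P π x) a z ∧ grW e K (psi P π x) (psi P π x) a z ≤
      (n : ℝ) * (Fintype.card C.I) * ((Fintype.card C.I) * B) / K.lam * η ^ 2 := by
  have hz' := V_sub_Ω C a hz
  have hpos := (K.ku a).pos z hz'
  have hnn : ∀ i, 0 ≤ gr (K.w a) (cp (e i) (psi P π x a)) (cp (e i) (psi P π x a)) z := fun i =>
    (H730.V.vpStmt.nonneg (K.w a) _ z hpos).1
  have hp : ∀ v : W, HasSum (fun i => ⟪e i, v⟫_ℝ ^ 2) (‖v‖ ^ 2) := by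
    intro v
    have h1 := e.hasSum_inner_mul_inner v v
    rw [real_inner_self_eq_norm_sq] at h1
    have h2 : (fun i => ⟪v, e i⟫_ℝ * ⟪e i, v⟫_ℝ) = fun i => ⟪e i, v⟫_ℝ ^ 2 := by
      funext i
      rw [real_inner_comm, sq]
    rwa [h2] at h1
  set v : C.I → W := fun b => π (C.κ a b z) x - x with hv
  have hU : HasSum (fun i => (∑ j : Fin n, (Fintype.card C.I : ℝ) *
      ∑ b, ‖dz j (fun y => (P.χ b a y : ℂ)) z‖ ^ 2 * ⟪e i, v b⟫_ℝ ^ 2) / K.lam)
      ((∑ j : Fin n, (Fintype.card C.I : ℝ) *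
        ∑ b, ‖dz j (fun y => (P.χ b a y : ℂ)) z‖ ^ 2 * ‖v b‖ ^ 2) / K.lam) := by
    refine HasSum.div_const ?_ _
    refine hasSum_sum fun j _ => ?_
    refine HasSum.mul_left _ ?_
    refine hasSum_sum fun b _ => ?_
    exact (hp (v b)).mul_left _
  have hle : ∀ i, gr (K.w a) (cp (e i) (psi P π x a)) (cp (e i) (psi P π x a)) z ≤
      (∑ j : Fin n, (Fintype.card C.I : ℝ) *
      ∑ b, ‖dz j (fun y => (P.χ b a y : ℂ)) z‖ ^ 2 * ⟪e i, v b⟫_ℝ ^ 2) / K.lam := by
    intro i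
    have h2 := (H730.V.vpStmt.ell (K.w a) (cp (e i) (psi P π x a)) z K.lam K.Lam hpos K.lam_pos
      (K.low a z hz') (K.up a z hz')).2.1
    rw [le_div_iff₀ K.lam_pos, mul_comm]
    exact h2.trans (D1_cp_le P π x (e i) hz)
  have hsum : Summable fun i => gr (K.w a) (cp (e i) (psi P π x a)) (cp (e i) (psi P π x a)) z :=
    Summable.of_nonneg_of_le hnn hle hU.summable
  refine ⟨tsum_nonneg hnn, ?_⟩
  have h3 : grW e K (psi P π x) (psi P π x) a z ≤ (∑ j : Fin n, (Fintype.card C.I : ℝ) *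
        ∑ b, ‖dz j (fun y => (P.χ b a y : ℂ)) z‖ ^ 2 * ‖v b‖ ^ 2) / K.lam := by
    rw [← hU.tsum_eq]
    exact hsum.tsum_le_tsum hle hU.summable
  refine h3.trans ?_
  have h4 : ∀ j : Fin n, ∀ b : C.I,
      ‖dz j (fun y => (P.χ b a y : ℂ)) z‖ ^ 2 * ‖v b‖ ^ 2 ≤ B * η ^ 2 := by
    intro j b
    have hB0 : 0 ≤ B := (sq_nonneg _).trans (hB a z hz j b)
    by_cases hc : z ∈ C.O a b ∧ C.T a b z ∈ P.K b
    · have hN := C.κ_mem a b z hc.1 hz (P.K_sub b hc.2)
      exact mul_le_mul (hB a z hz j b) (pow_le_pow_left₀ (norm_nonneg _) (h _ hN) 2)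
        (sq_nonneg _) hB0
    · have e0 : (fun y => (P.χ b a y : ℂ)) =ᶠ[𝓝 z] fun _ => ((0 : ℝ) : ℂ) := by
        filter_upwards [chi_ev P b hz' hc] with y hy
        rw [hy]
      rw [dz_congr j e0, Vale.Agent.P272.K.C2.dz_const, norm_zero]
      simp only [ne_eq, OfNat.ofNat_ne_zero, not_false_eq_true, zero_pow, zero_mul]
      positivity
  have h5 : ∑ j : Fin n, (Fintype.card C.I : ℝ) *
        ∑ b, ‖dz j (fun y => (P.χ b a y : ℂ)) z‖ ^ 2 * ‖v b‖ ^ 2 ≤
      ∑ _j : Fin n, (Fintype.card C.I : ℝ) * ∑ _b : C.I, B * η ^ 2 :=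
    Finset.sum_le_sum fun j _ => mul_le_mul_of_nonneg_left
      (Finset.sum_le_sum fun b _ => h4 j b) (Nat.cast_nonneg _)
  refine (div_le_div_of_nonneg_right h5 K.lam_pos.le).trans (le_of_eq ?_)
  simp only [Finset.sum_const, Finset.card_univ, Fintype.card_fin, nsmul_eq_mul]
  ring

/-- upper bound of the energy -/
theorem energy_psi_le (P : PU C) (K : KM C) (π : Γ →* (W ≃ₗᵢ[ℝ] W)) (e : HilbertBasis ι ℝ W)
    (x : W) {η B : ℝ} (hη : 0 ≤ η) (h : ∀ g ∈ C.N, ‖π g x - x‖ ≤ η)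
    (hB : ∀ a, ∀ z ∈ C.V a, ∀ j b, ‖dz j (fun y => (P.χ b a y : ℂ)) z‖ ^ 2 ≤ B) :
    IntX P K (grW e K (psi P π x) (psi P π x)) ≤ (∑ a : C.I,
      (n : ℝ) * (Fintype.card C.I) * ((Fintype.card C.I) * B) / K.lam * K.Lam *
        volume.real (C.V a)) * η ^ 2 := by
  unfold IntX
  rw [Finset.sum_mul]
  refine Finset.sum_le_sum fun a _ => ?_
  refine (le_abs_self _).trans ?_
  rw [← Real.norm_eq_abs]
  have hb : ∀ z ∈ C.V a, ‖P.χ a a z * grW e K (psi P π x) (psi P π x) a z * vol (K.w a) z‖ ≤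
      (n : ℝ) * (Fintype.card C.I) * ((Fintype.card C.I) * B) / K.lam * η ^ 2 * K.Lam := by
    intro z hz
    have hz' := V_sub_Ω C a hz
    obtain ⟨h1, h2⟩ := grW_le P K π e x hη h hB hz
    have h3 := (vol_pos K hz').le
    rw [Real.norm_of_nonneg (mul_nonneg (mul_nonneg (P.nonneg _ _ _) h1) h3)]
    have h4 := (mul_le_of_le_one_left h1 (chi_le_one P a hz')).trans h2
    exact mul_le_mul h4 (K.vol_up a z hz') h3 (h1.trans h2)
  refine (norm_setIntegral_le_of_norm_le_const (volume_V_lt C a) hb).trans (le_of_eq ?_)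
  ring

end

/-- the volume of the base -/
theorem vol_pos_X {n : ℕ} {Γ : Type} [Group Γ] {C : Coc n Γ} (P : PU C) (K : KM C) :
    0 < IntX P K (fun _ _ => (1 : ℝ)) := by
  obtain ⟨a⟩ := C.ne
  have hfam : Fam (bs C) (fun (_ : Unit) (_ : (bs C).I) (_ : Cm n) => (1 : ℝ)) :=
    { cont := fun _ _ => continuousOn_const
      compat := fun _ _ _ _ _ => rfl
      fin := Set.toFinite _ }
  have h1 := H913.V.v3Stmt.le (bs C) (bsP P) (bsK K) _ hfam (fun _ _ _ _ => zero_le_one) a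
  have h2 : Vale.Agent.P284.H894.V.Int (bsP P) (bsK K)
      (fun (_ : Unit) (_ : (bs C).I) (_ : Cm n) => (1 : ℝ)) = IntX P K (fun _ _ => (1 : ℝ)) := by
    unfold Vale.Agent.P284.H894.V.Int IntX
    rw [tsum_fintype, Fintype.univ_unit, Finset.sum_singleton]
    rfl
  rw [h2] at h1
  refine lt_of_lt_of_le ?_ h1
  rw [tsum_fintype, Fintype.univ_unit, Finset.sum_singleton]
  have hci : ContinuousOn (vol (K.w a)) (closedBall (C.c a) (3 * C.r a)) := fun z hz =>
    (smooth_vol (K.ku a) (closed_sub_Ω C a hz)).continuousAt.continuousWithinAt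
  have hint : IntegrableOn (vol (K.w a)) (C.V a) :=
    (hci.integrableOn_compact (isCompact_closedBall _ _)).mono_set (V_sub_closed C a)
  have h5 : ∫ _ in C.V a, K.lam ≤ ∫ z in C.V a, vol (K.w a) z :=
    setIntegral_mono_on (integrableOn_const (volume_V_lt C a).ne) hint measurableSet_ball
      fun z hz => K.vol_low a z (V_sub_Ω C a hz)
  have hV : 0 < volume.real (C.V a) := by
    refine ENNReal.toReal_pos ?_ (volume_V_lt C a).ne
    exact (measure_ball_pos volume _ (by have := C.r_pos a; linarith)).ne'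
  rw [setIntegral_const, smul_eq_mul] at h5
  have h6 : ∫ z in (bs C).V a, (1 : ℝ) * vol ((bsK K).w a) z = ∫ z in C.V a, vol (K.w a) z := by
    simp only [one_mul]
    rfl
  rw [h6]
  exact lt_of_lt_of_le (mul_pos hV K.lam_pos) h5

/-- **T10** -/
theorem t10Concl : T10Concl := by
  intro n Γ _ C P K
  obtain ⟨B, hB0, hB⟩ := exists_dchi_bound P
  have hX := vol_pos_X P K
  set Q : ℝ := ∑ a : C.I, (n : ℝ) * (Fintype.card C.I) * ((Fintype.card C.I) * B) / K.lam * K.Lam *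
        volume.real (C.V a) with hQ
  have hLam : ∀ a : C.I, 0 < K.Lam := fun a => by
    have hc : C.c a ∈ C.Ω a := mem_ball_self (by have := C.r_pos a; linarith)
    exact (vol_pos K hc).trans_le (K.vol_up a _ hc)
  have hQ0 : 0 ≤ Q := Finset.sum_nonneg fun a _ => by
    have h1 := hLam a
    have h2 := K.lam_pos
    positivity
  set V := IntX P K (fun _ _ => (1 : ℝ)) with hV
  refine ⟨Q + 4 / V, by positivity, ?_⟩
  intro W _ _ _ ι _ e π x η hx hη h
  refine ⟨psi P π x, et_psi P π x, ?_, ?_⟩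
  · have hη0 : 0 ≤ η := by
      obtain ⟨a⟩ := C.ne
      have hc : C.c a ∈ C.V a := mem_ball_self (by have := C.r_pos a; linarith)
      exact (norm_nonneg _).trans (psi_sub P π x h hc)
    refine (energy_psi_le P K π e x hη0 h hB).trans ?_
    have : 0 ≤ 4 / V * η ^ 2 := by positivity
    rw [← hQ]
    linarith [add_mul Q (4 / V) (η ^ 2)]
  · have h1 : V / 4 ≤ ipW P K (psi P π x) (psi P π x) := by
      rw [hV, ipW, IntX, IntX, Finset.sum_div]
      refine Finset.sum_le_sum fun a _ => ?_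
      rw [← integral_div]
      have hχ : ContinuousOn (P.χ a a) (closedBall (C.c a) (3 * C.r a)) := fun z hz =>
        (P.smooth a a z (closed_sub_Ω C a hz)).continuousAt.continuousWithinAt
      have hvol : ContinuousOn (vol (K.w a)) (closedBall (C.c a) (3 * C.r a)) := fun z hz =>
        (smooth_vol (K.ku a) (closed_sub_Ω C a hz)).continuousAt.continuousWithinAt
      have hpsi : ContinuousOn (psi P π x a) (closedBall (C.c a) (3 * C.r a)) := fun z hz =>
        ((et_psi P π x).smooth a z (closed_sub_Ω C a hz)).continuousAt.continuousWithinAt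
      have hi1 : IntegrableOn (fun z => P.χ a a z * 1 * vol (K.w a) z / 4) (C.V a) :=
        ((((hχ.mul continuousOn_const).mul hvol).div_const 4).integrableOn_compact
          (isCompact_closedBall _ _)).mono_set (V_sub_closed C a)
      have hi2 : IntegrableOn (fun z => P.χ a a z * ⟪psi P π x a z, psi P π x a z⟫_ℝ *
          vol (K.w a) z) (C.V a) :=
        (((hχ.mul (hpsi.inner hpsi)).mul hvol).integrableOn_compact
          (isCompact_closedBall _ _)).mono_set (V_sub_closed C a)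
      refine setIntegral_mono_on hi1 hi2 measurableSet_ball fun z hz => ?_
      have h2 := psi_sub P π x h hz
      have h3 : 1 / 2 ≤ ‖psi P π x a z‖ := by
        have h4 : ‖x‖ ≤ ‖psi P π x a z‖ + ‖psi P π x a z - x‖ := by
          have h5 : x = psi P π x a z - (psi P π x a z - x) := by abel
          calc ‖x‖ = ‖psi P π x a z - (psi P π x a z - x)‖ := by rw [← h5]
            _ ≤ _ := norm_sub_le _ _
        linarith
      have h4 : (1 : ℝ) / 4 ≤ ⟪psi P π x a z, psi P π x a z⟫_ℝ := by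
        rw [real_inner_self_eq_norm_sq]
        nlinarith
      have h5 := (vol_pos K (V_sub_Ω C a hz)).le
      have h6 := P.nonneg a a z
      have h7 : P.χ a a z * vol (K.w a) z * (1 / 4) ≤
          P.χ a a z * vol (K.w a) z * ⟪psi P π x a z, psi P π x a z⟫_ℝ :=
        mul_le_mul_of_nonneg_left h4 (mul_nonneg h6 h5)
      calc P.χ a a z * 1 * vol (K.w a) z / 4 = P.χ a a z * vol (K.w a) z * (1 / 4) := by ring
        _ ≤ _ := h7
        _ = _ := by ring
    have h2 : 0 ≤ Q * ipW P K (psi P π x) (psi P π x) := mul_nonneg hQ0 (by linarith)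
    have h3 : 1 ≤ 4 / V * ipW P K (psi P π x) (psi P π x) := by
      calc (1 : ℝ) = 4 / V * (V / 4) := by field_simp
        _ ≤ _ := mul_le_mul_of_nonneg_left h1 (by positivity)
    linarith [add_mul Q (4 / V) (ipW P K (psi P π x) (psi P π x))]

end Vale.Agent.P284.H212.T
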