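import Vale.Agent.P284.H661.T.TS
import Vale.Agent.P284.H66.V4

/-!
# P284, theorem T2, block T4: equivariant families supported in one piece
-/

open scoped Manifold ContDiff Topology Pointwise ComplexConjugate ComplexOrder InnerProductSpace
open Filter Set Metric MeasureTheory

noncomputable section

namespace Vale.Agent.P284.H212.T

open Vale.Agent.P272.K Vale.Agent.P284.H248 Vale.Agent.P284.H894 Vale.Agent.P284.H894.V
  Vale.Agent.P284.H661.T

open Classical in
/-- **T4** -/
theorem t4Stmt : T4Stmt := by
  intro n Γ _ C W _ _ _ π b F hF hcomp hsupp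
  set f : C.I → Cm n → W := fun a z =>
    if z ∈ C.O a b then π (C.κ a b z) (F (C.T a b z)) else 0 with hf
  have hsub : tsupport F ⊆ ball (C.c b) (4 * C.r b) := hsupp.trans (C.V_sub b)
  have hne : ∀ a z, f a z ≠ 0 → z ∈ C.O a b ∧ C.T a b z ∈ tsupport F := by
    intro a z h
    by_cases hc : z ∈ C.O a b
    · refine ⟨hc, ?_⟩
      simp only [hf, if_pos hc] at h
      refine subset_tsupport F ?_
      intro h0
      exact h (by rw [h0, map_zero])
    · simp only [hf, if_neg hc] at h
      exact absurd rfl h
  have hO : ∀ a, ∀ z ∈ C.O a b, f a z = π (C.κ a b z) (F (C.T a b z)) := fun a z hz => by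
    simp only [hf, if_pos hz]
  have hself : ∀ z ∈ C.Ω b, f b z = F z := by
    intro z hz
    have hO' : z ∈ C.O b b := by rw [C.O_self b]; exact hz
    rw [hO b z hO', C.κ_self b z hO', C.T_self b z hO', map_one]
    rfl
  refine ⟨f, ⟨?_, ?_, ?_⟩, hne, hO, hself⟩
  · -- smooth
    intro a z hz
    by_cases h : z ∈ C.O a b ∧ C.T a b z ∈ tsupport F
    · have e : f a =ᶠ[𝓝 z] fun y => π (C.κ a b z) (F (C.T a b y)) := by
        filter_upwards [(C.O_open a b).mem_nhds h.1, C.κ_loc a b z h.1] with y hy hk
        rw [hO a y hy, hk]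
      refine ContDiffAt.congr_of_eventuallyEq ?_ e
      exact (π (C.κ a b z)).contDiff.contDiffAt.comp z (hF.contDiffAt.comp z (C.T_smooth h.1))
    · have e : f a =ᶠ[𝓝 z] fun _ => 0 := by
        filter_upwards [C.closed a b (tsupport F) hcomp hsub z hz h] with y hy
        by_contra h0
        exact hy (hne a y h0)
      exact contDiffAt_const.congr_of_eventuallyEq e
  · -- compat
    intro a d z hz
    by_cases hb : z ∈ C.O a b
    · have hd : C.T a d z ∈ C.O d b := C.O_trans hz hb
      rw [hO a z hb, hO d _ hd, C.trans_κ a d b z hz hd, C.trans_T a d b z hz hd, map_mul]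
      rfl
    · have hd : C.T a d z ∉ C.O d b := fun h => hb (C.trans_mem a d b z hz h)
      simp only [hf, if_neg hb, if_neg hd, map_zero]
  · -- out
    intro a z hz
    by_contra h0
    exact hz (C.O_sub a b (hne a z h0).1)

end Vale.Agent.P284.H212.T
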